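import Mathlib
import Vale.Agent.P322.Phi
import Vale.Agent.P322.Fourier

namespace Vale.Agent.Results.P322.CoordinatewiseAllF

open Finset Vale.Agent.P322

/-- Joint probability mass function of `(X, Y)`: `X` is uniform on `n` bits (the two signs are
coded as the two Booleans) and `Y` is the output of `n` independent binary symmetric channels with
crossover probability `e`. -/
noncomputable def jointXY (n : ℕ) (e : ℝ) (x y : Fin n → Bool) : ℝ :=
  (1 / 2) ^ n * ∏ j, (if x j = y j then 1 - e else e)

/-- Joint probability mass function of the pair `(f(X), Y_i)`. -/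
noncomputable def jointFY (n : ℕ) (e : ℝ) (f : (Fin n → Bool) → Bool) (i : Fin n)
    (b s : Bool) : ℝ :=
  ∑ x, ∑ y, (if f x = b ∧ y i = s then jointXY n e x y else 0)

/-- Mutual information, in bits, of a joint probability mass function on a finite product. -/
noncomputable def mutualInfo {α β : Type} [Fintype α] [Fintype β] (P : α → β → ℝ) : ℝ :=
  ∑ a, ∑ b, P a b * Real.logb 2 (P a b / ((∑ b', P a b') * (∑ a', P a' b)))

/-- The binary entropy function in bits. -/
noncomputable def h2 (e : ℝ) : ℝ := -(e * Real.logb 2 e) - (1 - e) * Real.logb 2 (1 - e)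

lemma weight_eq (e : ℝ) (u v : Bool) :
    (if u = v then 1 - e else e) = (1 + (1 - 2 * e) * sg u * sg v) / 2 := by
  cases u <;> cases v <;> simp [sg] <;> ring

lemma jointFY_eq (n : ℕ) (e : ℝ) (f : (Fin n → Bool) → Bool) (i : Fin n) (b s : Bool) :
    jointFY n e f i b s
      = (1 / 2) ^ n * ((∑ x, (if f x = b then (1 : ℝ) else 0))
          + (1 - 2 * e) * sg s * ∑ x, (if f x = b then (1 : ℝ) else 0) * sg (x i)) / 2 := by
  unfold jointFY
  have h1 : ∀ x : Fin n → Bool, ∑ y : Fin n → Bool,
      (if f x = b ∧ y i = s then jointXY n e x y else 0)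
      = (if f x = b then (1 : ℝ) else 0) * ((1 / 2) ^ n * ((1 + (1 - 2 * e) * sg (x i) * sg s) / 2)) := by
    intro x
    have hm := marginal (fun j v => if x j = v then 1 - e else e)
      (fun j => by cases x j <;> simp) i s
    rw [← weight_eq, ← hm, Finset.mul_sum, Finset.mul_sum]
    apply Finset.sum_congr rfl
    intro y _
    unfold jointXY
    by_cases hb : f x = b <;> by_cases hs : y i = s <;> simp [hb, hs]
  rw [Finset.sum_congr rfl (fun x _ => h1 x)]
  rw [Finset.mul_sum, mul_add, Finset.mul_sum, Finset.mul_sum, add_div, Finset.sum_div,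
    Finset.sum_div, ← Finset.sum_add_distrib]
  apply Finset.sum_congr rfl
  intro x _
  ring

lemma term_bound (c A D r : ℝ) (hc : 0 < c) (hA : 0 < A) (hD : |D| ≤ A) (hr0 : 0 ≤ r)
    (hr1 : r ≤ 1) :
    ∑ s : Bool, (c * (A + r * sg s * D) / 2)
        * Real.logb 2 ((c * (A + r * sg s * D) / 2) / ((c * A) * (1 / 2)))
      ≤ phi r / (2 * Real.log 2) * (c * D ^ 2 / A) := by
  have hlog2 : 0 < Real.log 2 := Real.log_pos (by norm_num)
  set u : ℝ := D / A with hu
  have hDu : D = A * u := by
    rw [hu]; field_simp
  have hu1 : |u| ≤ 1 := by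
    rw [hu, abs_div, abs_of_pos hA]
    exact (div_le_one hA).mpr hD
  have hratio : ∀ t : ℝ, (c * (A + t * D) / 2) / ((c * A) * (1 / 2)) = 1 + t * u := by
    intro t
    rw [hDu]
    field_simp
  have hval : ∀ t : ℝ, c * (A + t * D) / 2 = (c * A / 2) * (1 + t * u) := by
    intro t
    rw [hDu]
    ring
  rw [Fintype.sum_bool]
  have e1 : r * sg true * D = r * D := by simp [sg]
  have e2 : r * sg false * D = (-r) * D := by simp [sg]
  rw [e1, e2, hratio r, hratio (-r), hval r, hval (-r)]
  have e3 : c * A / 2 * (1 + r * u) * Real.logb 2 (1 + r * u)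
      + c * A / 2 * (1 + -r * u) * Real.logb 2 (1 + -r * u)
      = (c * A / 2) * (phi (r * u) / Real.log 2) := by
    unfold phi Real.logb
    have : (1 : ℝ) + -r * u = 1 - r * u := by ring
    rw [this]
    field_simp
  rw [e3]
  have h := phi_mul_le hr0 hr1 hu1
  have e4 : phi r / (2 * Real.log 2) * (c * D ^ 2 / A) = (c * A / 2) * (u ^ 2 * phi r / Real.log 2) := by
    rw [hDu]
    field_simp
  rw [e4]
  apply mul_le_mul_of_nonneg_left _ (by positivity)
  exact div_le_div_of_nonneg_right h hlog2.le

lemma phi_eq_h2 (e : ℝ) (h0 : 0 ≤ e) (h1 : e ≤ 1 / 2) :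
    phi (1 - 2 * e) / (2 * Real.log 2) = 1 - h2 e := by
  have hlog2 : Real.log 2 ≠ 0 := (Real.log_pos (by norm_num)).ne'
  unfold phi h2 Real.logb
  have e1 : (1 : ℝ) + (1 - 2 * e) = 2 * (1 - e) := by ring
  have e2 : (1 : ℝ) - (1 - 2 * e) = 2 * e := by ring
  rw [e1, e2, Real.log_mul (by norm_num) (by linarith)]
  rcases eq_or_lt_of_le h0 with h | h
  · subst h
    simp only [sub_zero, Real.log_one, add_zero, mul_zero, Real.log_zero, zero_div, neg_zero,
      mul_one]
    field_simp
  · rw [Real.log_mul (by norm_num) h.ne']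
    field_simp
    ring

theorem result (n : ℕ) (f : (Fin n → Bool) → Bool) (e : ℝ) (h0 : 0 ≤ e) (h1 : e ≤ 1 / 2) :
    ∑ i, mutualInfo (jointFY n e f i) ≤ 1 - h2 e := by
  classical
  set r : ℝ := 1 - 2 * e with hr
  have hr0 : 0 ≤ r := by rw [hr]; linarith
  have hr1 : r ≤ 1 := by rw [hr]; linarith
  set c : ℝ := (1 / 2) ^ n with hc
  have hcpos : 0 < c := by rw [hc]; positivity
  have hc2 : c * 2 ^ n = 1 := by
    rw [hc, ← mul_pow]; norm_num
  set g : Bool → (Fin n → Bool) → ℝ := fun b x => if f x = b then 1 else 0 with hg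
  set A : Bool → ℝ := fun b => ∑ x, g b x with hA
  set D : Bool → Fin n → ℝ := fun b i => ∑ x, g b x * sg (x i) with hD
  set κ : ℝ := phi r / (2 * Real.log 2) with hκ
  have hlog2 : 0 < Real.log 2 := Real.log_pos (by norm_num)
  have hκ0 : 0 ≤ κ := div_nonneg (phi_nonneg hr0 hr1) (by positivity)
  have hP : ∀ i b s, jointFY n e f i b s = c * (A b + r * sg s * D b i) / 2 := by
    intro i b s
    exact jointFY_eq n e f i b s
  have hg0 : ∀ b x, 0 ≤ g b x := by
    intro b x
    simp only [hg]
    split_ifs <;> norm_num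
  have hgg : ∀ b x, g b x * g b x = g b x := by
    intro b x
    simp only [hg]
    split_ifs <;> norm_num
  have hA0 : ∀ b, 0 ≤ A b := fun b => Finset.sum_nonneg (fun x _ => hg0 b x)
  have hDA : ∀ b i, |D b i| ≤ A b := by
    intro b i
    calc |D b i| ≤ ∑ x, |g b x * sg (x i)| := Finset.abs_sum_le_sum_abs _ _
      _ = ∑ x, g b x := by
        apply Finset.sum_congr rfl
        intro x _
        rw [abs_mul, sg_abs, mul_one, abs_of_nonneg (hg0 b x)]
  have hAsum : A true + A false = 2 ^ n := by
    simp only [hA]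
    rw [← Finset.sum_add_distrib]
    have : ∀ x : Fin n → Bool, g true x + g false x = 1 := by
      intro x
      simp only [hg]
      cases f x <;> simp
    rw [Finset.sum_congr rfl (fun x _ => this x)]
    simp
  have hDsum : ∀ i, D true i + D false i = 0 := by
    intro i
    simp only [hD]
    rw [← Finset.sum_add_distrib]
    have : ∀ x : Fin n → Bool, g true x * sg (x i) + g false x * sg (x i) = sg (x i) := by
      intro x
      simp only [hg]
      cases f x <;> simp
    rw [Finset.sum_congr rfl (fun x _ => this x)]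
    exact sum_sg i
  -- marginals
  have hm1 : ∀ i b, ∑ s, jointFY n e f i b s = c * A b := by
    intro i b
    rw [Fintype.sum_bool, hP, hP]
    simp [sg]
    ring
  have hm2 : ∀ i s, ∑ b, jointFY n e f i b s = 1 / 2 := by
    intro i s
    rw [Fintype.sum_bool, hP, hP]
    have e1 : c * (A true + r * sg s * D true i) / 2 + c * (A false + r * sg s * D false i) / 2
        = c * (A true + A false) / 2 + c * r * sg s * (D true i + D false i) / 2 := by ring
    rw [e1, hAsum, hDsum, hc2]
    ring
  -- per-value bound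
  have hT : ∀ b, ∑ i, ∑ s, jointFY n e f i b s
      * Real.logb 2 (jointFY n e f i b s / ((∑ s', jointFY n e f i b s') * (∑ b', jointFY n e f i b' s)))
      ≤ κ * (1 - c * A b) := by
    intro b
    rcases eq_or_lt_of_le (hA0 b) with hz | hpos
    · -- A b = 0
      have hDz : ∀ i, D b i = 0 := by
        intro i
        have := hDA b i
        rw [← hz] at this
        exact abs_eq_zero.mp (le_antisymm this (abs_nonneg _))
      have : ∀ i s, jointFY n e f i b s = 0 := by
        intro i s
        rw [hP, ← hz, hDz]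
        ring
      simp only [this, zero_mul, Finset.sum_const_zero]
      rw [← hz]
      simpa using hκ0
    · have hstep : ∀ i, ∑ s, jointFY n e f i b s
          * Real.logb 2 (jointFY n e f i b s / ((∑ s', jointFY n e f i b s') * (∑ b', jointFY n e f i b' s)))
          ≤ κ * (c * D b i ^ 2 / A b) := by
        intro i
        have := term_bound c (A b) (D b i) r hcpos hpos (hDA b i) hr0 hr1
        simp only [hm1, hm2]
        simp only [hP]
        exact this
      have hb := bessel (g b) (hgg b)
      calc _ ≤ ∑ i, κ * (c * D b i ^ 2 / A b) := Finset.sum_le_sum (fun i _ => hstep i)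
        _ = κ * (c * (∑ i, D b i ^ 2) / A b) := by
          rw [← Finset.mul_sum]
          congr 1
          rw [Finset.mul_sum, Finset.sum_div]
        _ ≤ κ * (1 - c * A b) := by
          apply mul_le_mul_of_nonneg_left _ hκ0
          rw [div_le_iff₀ hpos]
          have h3 : ∑ i, D b i ^ 2 ≤ 2 ^ n * A b - A b ^ 2 := by
            have : ∑ i, D b i ^ 2 + A b ^ 2 ≤ 2 ^ n * A b := hb
            linarith
          calc c * ∑ i, D b i ^ 2 ≤ c * (2 ^ n * A b - A b ^ 2) :=
                mul_le_mul_of_nonneg_left h3 hcpos.le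
            _ = (c * 2 ^ n) * A b - c * A b ^ 2 := by ring
            _ = (1 - c * A b) * A b := by rw [hc2]; ring
  unfold mutualInfo
  rw [Finset.sum_comm, Fintype.sum_bool]
  have ht := hT true
  have hf := hT false
  have hfin : κ * (1 - c * A true) + κ * (1 - c * A false) = κ := by
    have : c * A true + c * A false = 1 := by rw [← mul_add, hAsum, hc2]
    calc κ * (1 - c * A true) + κ * (1 - c * A false)
        = κ * (2 - (c * A true + c * A false)) := by ring
      _ = κ := by rw [this]; ring
  have hk : κ = 1 - h2 e := phi_eq_h2 e h0 h1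
  linarith

end Vale.Agent.Results.P322.CoordinatewiseAllF
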